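import Mathlib

/-! T4: there are enough monomials. -/

open Filter

namespace Vale.Agent.P181.H474

/-- enough monomials of degree `k` in `⌊a^(δ/2)⌋` variables -/
theorem n2 (δ : ℝ) (hδ : 0 < δ) : ∃ k : ℕ, 1 ≤ k ∧ ∀ᶠ a : ℕ in atTop,
    a ^ 2 ≤ (⌊(a : ℝ) ^ (δ / 2)⌋₊ + k - 1).choose k ∧ 2 * k + 10 ≤ a ∧ 8 * k ≤ a := by
  obtain ⟨k, hk⟩ := exists_nat_gt (5 / δ)
  have hk0 : 0 < (k : ℝ) := (by positivity : (0 : ℝ) < 5 / δ).trans hk
  have hk1 : 1 ≤ k := by exact_mod_cast hk0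
  have hkδ : 5 / 2 ≤ δ / 2 * k := by
    rw [div_lt_iff₀ hδ] at hk
    linarith
  refine ⟨k, hk1, ?_⟩
  have t1 : Tendsto (fun a : ℕ => (a : ℝ) ^ (δ / 2)) atTop atTop :=
    (tendsto_rpow_atTop (by positivity)).comp tendsto_natCast_atTop_atTop
  have t2 : Tendsto (fun a : ℕ => (a : ℝ) ^ ((1 : ℝ) / 2)) atTop atTop :=
    (tendsto_rpow_atTop (by positivity)).comp tendsto_natCast_atTop_atTop
  filter_upwards [t1.eventually_ge_atTop 2, t2.eventually_ge_atTop ((2 : ℝ) ^ k * k.factorial),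
    eventually_ge_atTop (2 * k + 10), eventually_ge_atTop (8 * k), eventually_ge_atTop 1]
    with a h1 h2 h3 h4 h5
  refine ⟨?_, h3, h4⟩
  have ha : (1 : ℝ) ≤ a := by exact_mod_cast h5
  have ha0 : (0 : ℝ) < a := by linarith
  set R := ⌊(a : ℝ) ^ (δ / 2)⌋₊ with hR
  have hR1 : (a : ℝ) ^ (δ / 2) / 2 ≤ R := by
    have := Nat.lt_floor_add_one ((a : ℝ) ^ (δ / 2))
    rw [← hR] at this
    linarith
  have hpow : (R : ℝ) ^ k ≤ k.factorial * (R + k - 1).choose k := by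
    have h := Nat.pow_le_choose (α := ℝ) k (R + k - 1)
    have e : R + k - 1 + 1 - k = R := by omega
    rw [e, div_le_iff₀ (by positivity)] at h
    linarith
  have h6 : (a : ℝ) ^ ((5 : ℝ) / 2) ≤ 2 ^ k * (R : ℝ) ^ k := by
    have h7 : (a : ℝ) ^ ((5 : ℝ) / 2) ≤ (a : ℝ) ^ (δ / 2 * k) :=
      Real.rpow_le_rpow_of_exponent_le ha hkδ
    have h8 : (a : ℝ) ^ (δ / 2 * k) = ((a : ℝ) ^ (δ / 2)) ^ k := by
      rw [Real.rpow_mul ha0.le, Real.rpow_natCast]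
    rw [h8] at h7
    refine h7.trans ?_
    rw [← mul_pow]
    exact pow_le_pow_left₀ (by positivity) (by linarith) k
  have h9 : (a : ℝ) ^ ((5 : ℝ) / 2) = (a : ℝ) ^ 2 * (a : ℝ) ^ ((1 : ℝ) / 2) := by
    rw [← Real.rpow_natCast, ← Real.rpow_add ha0]
    norm_num
  have h10 : (a : ℝ) ^ 2 * ((2 : ℝ) ^ k * k.factorial) ≤
      2 ^ k * (k.factorial * (R + k - 1).choose k) := by
    calc (a : ℝ) ^ 2 * ((2 : ℝ) ^ k * k.factorial) ≤ (a : ℝ) ^ 2 * (a : ℝ) ^ ((1 : ℝ) / 2) :=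
          mul_le_mul_of_nonneg_left h2 (by positivity)
      _ = (a : ℝ) ^ ((5 : ℝ) / 2) := h9.symm
      _ ≤ 2 ^ k * (R : ℝ) ^ k := h6
      _ ≤ _ := mul_le_mul_of_nonneg_left hpow (by positivity)
  have h11 : (a : ℝ) ^ 2 ≤ (R + k - 1).choose k := by
    have hp : (0 : ℝ) < (2 : ℝ) ^ k * k.factorial := by positivity
    refine le_of_mul_le_mul_right ?_ hp
    linarith
  exact_mod_cast h11

end Vale.Agent.P181.H474
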